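import Mathlib

/-!
# P368: state vectors, gates, circuits and adaptive protocols

Bits are elements of `Fin 2`, whose addition is the exclusive or and whose multiplication is the
conjunction. A state of `N` qubits is its vector of amplitudes; after a measurement it is kept
unnormalized, so that its squared norm is the probability of the outcomes seen so far.
-/

namespace Vale.Agent.N368V

/-- Vectors of amplitudes of `N` qubits, indexed by the bit strings of length `N`. -/
abbrev State (N : ℕ) : Type := (Fin N → Fin 2) → ℂ

variable {N n a : ℕ}

/-- The squared norm of a vector of amplitudes. -/
noncomputable def mass (φ : State N) : ℝ := ∑ z, ‖φ z‖ ^ 2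

/-- The state `|0⟩ ⊗ ⋯ ⊗ |0⟩`. -/
def zeros (N : ℕ) : State N := fun z => if ∀ i, z i = 0 then 1 else 0

/-- The state `|x⟩ ⊗ ψ`: the input `x` on the first `n` qubits, `ψ` on the other `a` qubits. -/
def input (x : Fin n → Fin 2) (ψ : State a) : State (n + a) := fun z =>
  if ∀ i, z (Fin.castAdd a i) = x i then ψ fun j => z (Fin.natAdd n j) else 0

/-- The part of `φ` in which the qubit `q` is `b`: the unnormalized state left when the
measurement of `q` in the computational basis gives `b`. -/
def proj (q : Fin N) (b : Fin 2) (φ : State N) : State N := fun z => if z q = b then φ z else 0

/-- The gates: a one-qubit unitary `u` on the qubit `q`, or a generalized Toffoli gate with a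
nonempty set of controls and a target outside it. -/
inductive Gate (N : ℕ) : Type
  | one (q : Fin N) (u : Matrix.unitaryGroup (Fin 2) ℂ)
  | toffoli (ctrl : Finset (Fin N)) (tgt : Fin N) (nonempty : ctrl.Nonempty) (distinct : tgt ∉ ctrl)

/-- The qubits on which a gate acts. -/
def Gate.qubits : Gate N → Finset (Fin N)
  | .one q _ => {q}
  | .toffoli ctrl tgt _ _ => insert tgt ctrl

/-- The action of a gate on amplitudes. The Toffoli gate permutes the basis states by the
involution which adds the product of the control bits to the target bit. -/
noncomputable def Gate.act : Gate N → State N → State N
  | .one q u, φ => fun z => ∑ b, u.1 (z q) b * φ (Function.update z q b)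
  | .toffoli ctrl tgt _ _, φ => fun z => φ (Function.update z tgt (z tgt + ∏ i ∈ ctrl, z i))

/-- A list of gates is a layer if the gates act on pairwise disjoint sets of qubits. -/
def IsLayer (L : List (Gate N)) : Prop := L.Pairwise fun g h => Disjoint g.qubits h.qubits

/-- The action of a layer: all its gates are applied. -/
noncomputable def layerAct (L : List (Gate N)) (φ : State N) : State N := L.foldr Gate.act φ

/-- The action of a circuit, a list of layers of which the first one is applied first. -/
noncomputable def run (C : List (List (Gate N))) (φ : State N) : State N :=
  C.foldl (fun χ L => layerAct L χ) φ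

/-- Adaptive protocols: stop with an answer or with none (`none` discards the run); measure a
qubit and go on in a way that depends on the outcome; apply a layer of gates and go on. -/
inductive Protocol (N : ℕ) : Type
  | stop (answer : Option (Fin 2))
  | measure (q : Fin N) (next : Fin 2 → Protocol N)
  | layer (L : List (Gate N)) (isLayer : IsLayer L) (next : Protocol N)

/-- The largest number of layers along a run of the protocol. -/
def Protocol.depth : Protocol N → ℕ
  | .stop _ => 0
  | .measure _ next => max (next 0).depth (next 1).depth
  | .layer _ _ next => next.depth + 1

/-- The number of sequences of measurement outcomes, the leaves of the protocol tree. -/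
def Protocol.branches : Protocol N → ℕ
  | .stop _ => 1
  | .measure _ next => (next 0).branches + (next 1).branches
  | .layer _ _ next => next.branches

/-- The probability that the protocol started in the state `φ` stops with the answer `b`. -/
noncomputable def Protocol.prob : Protocol N → State N → Fin 2 → ℝ
  | .stop answer, φ, b => if answer = some b then mass φ else 0
  | .measure q next, φ, b => (next 0).prob (proj q 0 φ) b + (next 1).prob (proj q 1 φ) b
  | .layer L _ next, φ, b => next.prob (layerAct L φ) b

end Vale.Agent.N368V
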