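import Vale.Agent.N368.Defs
import Vale.Agent.N368.Parity

/-!
# P368: the parity bias of a subcube of outcomes, for an arbitrary state of the ancillas
-/

set_option linter.unusedSectionVars false

namespace Vale.Agent.N368V

open Matrix Finset Vale.Agent.N368 Vale.Agent.N368.Parity
open scoped Matrix.Norms.L2Operator

variable {ι : Type} [Fintype ι] [DecidableEq ι] {n : ℕ}

/-- The sesquilinear form of a matrix. -/
noncomputable def form (A : Op ι) (φ χ : (ι → Fin 2) → ℂ) : ℂ := star φ ⬝ᵥ (A *ᵥ χ)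

theorem form_expand (A : Op ι) (φ χ : (ι → Fin 2) → ℂ) :
    form A φ χ = ∑ y, ∑ y', A y y' * (star (φ y) * χ y') := by
  unfold form
  simp only [dotProduct, mulVec, Pi.star_apply, Finset.mul_sum]
  refine Finset.sum_congr rfl fun y _ => Finset.sum_congr rfl fun y' _ => by ring

theorem form_conj (A B C : Op ι) (φ χ : (ι → Fin 2) → ℂ) :
    form (star B * A * C) φ χ = form A (B *ᵥ φ) (C *ᵥ χ) := by
  unfold form
  rw [Matrix.star_mulVec, ← Matrix.dotProduct_mulVec, Matrix.mulVec_mulVec, Matrix.mulVec_mulVec,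
    Matrix.star_eq_conjTranspose]

theorem norm_form_le (A : Op ι) (φ χ : (ι → Fin 2) → ℂ) (hφ : ∑ z, ‖φ z‖ ^ 2 ≤ 1)
    (hχ : ∑ z, ‖χ z‖ ^ 2 ≤ 1) : ‖form A φ χ‖ ≤ ‖A‖ := by
  have h1 : ∀ ξ : (ι → Fin 2) → ℂ, ∑ z, ‖ξ z‖ ^ 2 ≤ 1 →
      ‖(WithLp.toLp 2 ξ : EuclideanSpace ℂ (ι → Fin 2))‖ ≤ 1 := by
    intro ξ hξ
    rw [EuclideanSpace.norm_eq]
    exact Real.sqrt_le_one.2 hξ
  have h2 : form A φ χ = inner ℂ (WithLp.toLp 2 φ : EuclideanSpace ℂ (ι → Fin 2))
      (WithLp.toLp 2 (A *ᵥ χ) : EuclideanSpace ℂ (ι → Fin 2)) := by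
    rw [EuclideanSpace.inner_eq_star_dotProduct, form, dotProduct_comm]
  have h3 := Matrix.l2_opNorm_mulVec A (WithLp.toLp 2 χ : EuclideanSpace ℂ (ι → Fin 2))
  rw [h2]
  refine (norm_inner_le_norm _ _).trans ?_
  have h4 := h1 φ hφ
  have h5 := h1 χ hχ
  have h6 : ‖(WithLp.toLp 2 (A *ᵥ χ) : EuclideanSpace ℂ (ι → Fin 2))‖ ≤ ‖A‖ :=
    le_trans h3 (mul_le_of_le_one_right (norm_nonneg _) h5)
  calc _ ≤ 1 * ‖A‖ := mul_le_mul h4 h6 (norm_nonneg _) zero_le_one
    _ = ‖A‖ := one_mul _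

theorem form_PP (T : Finset ι) (φ : (ι → Fin 2) → ℂ) :
    form (PP T) φ φ = ((∑ z, if ∀ i ∈ T, z i = 0 then ‖φ z‖ ^ 2 else 0 : ℝ) : ℂ) := by
  unfold form PP
  simp only [dotProduct, mulVec_diagonal, Pi.star_apply, hw_eq_zero_iff]
  push_cast
  refine Finset.sum_congr rfl fun z _ => ?_
  split_ifs
  · rw [one_mul, Complex.star_def, Complex.conj_mul']
    push_cast
    rfl
  · simp

/-- The vector `|x⟩ ⊗ g`, the input bits sitting at the places `e i`. -/
def vec (e : Fin n ↪ ι) (g : (ι → Fin 2) → ℂ) (x : Fin n → Fin 2) : (ι → Fin 2) → ℂ :=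
  fun z => if ∀ i, z (e i) = x i then g z else 0

/-- The Hadamard-type local unitary on the input qubits. -/
noncomputable def locH (e : Fin n ↪ ι) (s : Fin n → Fin 2) : ι → M2 :=
  Function.extend e (fun i => hz (s i)) fun _ => 1

theorem locH_in (e : Fin n ↪ ι) (s : Fin n → Fin 2) (i : Fin n) : locH e s (e i) = hz (s i) :=
  e.injective.extend_apply _ _ i

theorem locH_out (e : Fin n ↪ ι) (s : Fin n → Fin 2) {k : ι} (hk : ¬ ∃ i, e i = k) :
    locH e s k = 1 := Function.extend_apply' _ _ _ hk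

theorem isLoc_locH (e : Fin n ↪ ι) (s : Fin n → Fin 2) : IsLoc (tens (locH e s)) := by
  refine ⟨_, fun k => ?_, rfl⟩
  by_cases hk : ∃ i, e i = k
  · obtain ⟨i, rfl⟩ := hk
    rw [locH_in]
    exact hz_unitary _
  · rw [locH_out e s hk]
    exact one_mem _

theorem locH_vec (e : Fin n ↪ ι) (g : (ι → Fin 2) → ℂ)
    (hg : ∀ z z', (∀ k, (¬ ∃ i, e i = k) → z k = z' k) → g z = g z')
    (s x : Fin n → Fin 2) (z : ι → Fin 2) :
    (tens (locH e s) *ᵥ vec e g x) z = (∏ i, hz (s i) (z (e i)) (x i)) * g z := by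
  set y : ι → Fin 2 := Function.extend e x z with hy
  have y1 : ∀ i, y (e i) = x i := fun i => e.injective.extend_apply _ _ i
  have y2 : ∀ k, (¬ ∃ i, e i = k) → y k = z k := fun k hk => Function.extend_apply' _ _ _ hk
  simp only [mulVec, dotProduct]
  rw [Finset.sum_eq_single y]
  · rw [vec, if_pos y1, hg y z y2, tens_apply]
    congr 1
    rw [← Finset.prod_subset (Finset.subset_univ (univ.map e)), Finset.prod_map]
    · refine Finset.prod_congr rfl fun i _ => ?_
      rw [locH_in, y1]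
    · intro k _ hk
      have hk' : ¬ ∃ i, e i = k := by simpa using hk
      rw [locH_out e s hk', y2 k hk', Matrix.one_apply_eq]
  · intro w _ hw
    unfold vec
    split_ifs with h
    · obtain ⟨k, hk⟩ := Function.ne_iff.mp hw
      have hk' : ¬ ∃ i, e i = k := by
        rintro ⟨i, rfl⟩
        exact hk (by rw [h, y1])
      rw [tens_apply, Finset.prod_eq_zero (Finset.mem_univ k), zero_mul]
      rw [locH_out e s hk', Matrix.one_apply_ne]
      rw [← y2 k hk']
      exact hk.symm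
    · exact mul_zero _
  · intro h
    exact absurd (Finset.mem_univ _) h

theorem sum_locH (e : Fin n ↪ ι) (g : (ι → Fin 2) → ℂ)
    (hg : ∀ z z', (∀ k, (¬ ∃ i, e i = k) → z k = z' k) → g z = g z') (y y' : ι → Fin 2) :
    ∑ s : Fin n → Fin 2, star ((tens (locH e s) *ᵥ vec e g 0) y) *
        (tens (locH e s) *ᵥ vec e g 1) y' =
      ∑ x : Fin n → Fin 2, sgn (∑ i, x i) * (star (vec e g x y) * vec e g x y') := by
  have h1 : ∀ s : Fin n → Fin 2, star ((tens (locH e s) *ᵥ vec e g 0) y) *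
      (tens (locH e s) *ᵥ vec e g 1) y' =
      (∏ i, (fun (i : Fin n) (b : Fin 2) => star (hz b (y (e i)) 0) * hz b (y' (e i)) 1) i (s i)) *
        (star (g y) * g y') := by
    intro s
    rw [locH_vec e g hg, locH_vec e g hg, Finset.prod_mul_distrib, star_mul', star_prod]
    simp only [Pi.zero_apply, Pi.one_apply]
    ring
  rw [Finset.sum_congr rfl fun s _ => h1 s, ← Finset.sum_mul, ← Fintype.piFinset_univ,
    ← Finset.prod_univ_sum (fun _ : Fin n => (Finset.univ : Finset (Fin 2)))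
      (fun (i : Fin n) (b : Fin 2) => star (hz b (y (e i)) 0) * hz b (y' (e i)) 1)]
  simp only [hz_sum]
  rw [Fintype.piFinset_univ, Finset.sum_eq_single fun i => y (e i)]
  · unfold vec
    rw [if_pos fun _ => rfl]
    split_ifs with h
    · rw [sgn_sum]
      congr 1
      exact Finset.prod_congr rfl fun i _ => if_pos (h i).symm
    · push Not at h
      obtain ⟨i, hi⟩ := h
      rw [Finset.prod_eq_zero (Finset.mem_univ i) (if_neg hi.symm)]
      simp
  · intro x _ hx
    unfold vec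
    rw [if_neg, star_zero, zero_mul, mul_zero]
    intro h
    exact hx (funext fun i => (h i).symm)
  · intro h
    exact absurd (Finset.mem_univ _) h

theorem sum_form (e : Fin n ↪ ι) (g : (ι → Fin 2) → ℂ)
    (hg : ∀ z z', (∀ k, (¬ ∃ i, e i = k) → z k = z' k) → g z = g z') (A : Op ι) :
    ∑ x : Fin n → Fin 2, sgn (∑ i, x i) * form A (vec e g x) (vec e g x) =
      ∑ s : Fin n → Fin 2, form A (tens (locH e s) *ᵥ vec e g 0) (tens (locH e s) *ᵥ vec e g 1) := by
  simp only [form_expand]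
  have h1 : ∀ F : (Fin n → Fin 2) → (ι → Fin 2) → (ι → Fin 2) → ℂ,
      ∑ s, ∑ y, ∑ y', A y y' * F s y y' = ∑ y, ∑ y', A y y' * ∑ s, F s y y' := by
    intro F
    rw [Finset.sum_comm]
    refine Finset.sum_congr rfl fun y _ => ?_
    rw [Finset.sum_comm]
    exact Finset.sum_congr rfl fun y' _ => (Finset.mul_sum _ _ _).symm
  rw [h1]
  simp only [sum_locH e g hg]
  rw [← h1]
  refine Finset.sum_congr rfl fun x _ => ?_
  simp only [Finset.mul_sum]
  exact Finset.sum_congr rfl fun y _ => Finset.sum_congr rfl fun y' _ => by ring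

theorem PP_vec (e : Fin n ↪ ι) (g : (ι → Fin 2) → ℂ) :
    PP (univ.map e) *ᵥ vec e g 0 = vec e g 0 := by
  funext z
  rw [PP, mulVec_diagonal, vec]
  split_ifs with h1 h2 h2
  · exact one_mul _
  · exact mul_zero _
  · refine absurd ((hw_eq_zero_iff _ _).2 fun k hk => ?_) h1
    obtain ⟨i, -, rfl⟩ := Finset.mem_map.1 hk
    exact h2 i
  · exact mul_zero _

theorem QQ_vec (e : Fin n ↪ ι) (g : (ι → Fin 2) → ℂ) :
    QQ (univ.map e) n *ᵥ vec e g 1 = vec e g 1 := by
  funext z
  rw [QQ, mulVec_diagonal, vec]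
  split_ifs with h1 h2 h2
  · exact one_mul _
  · exact mul_zero _
  · refine absurd ?_ h1
    unfold hw
    rw [Finset.filter_true_of_mem fun k hk => ?_]
    · simp
    · obtain ⟨i, -, rfl⟩ := Finset.mem_map.1 hk
      exact h2 i
  · exact mul_zero _

/-- The real sign `(-1)^b`. -/
def sg (b : Fin 2) : ℝ := if b = 0 then 1 else -1

theorem sg_cast (b : Fin 2) : ((sg b : ℝ) : ℂ) = sgn b := by
  unfold sg sgn
  split_ifs <;> simp

/-- The parity bias of the event that the qubits of `T` read zero. -/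
theorem key_zero {d : ℕ} {c : ℝ} (hL : Lam ι d n c) (e : Fin n ↪ ι) (g : (ι → Fin 2) → ℂ)
    (hg : ∀ z z', (∀ k, (¬ ∃ i, e i = k) → z k = z' k) → g z = g z')
    (hm : ∀ x, ∑ z, ‖vec e g x z‖ ^ 2 ≤ 1) {U : Op ι} (hU : Circ d U) (T : Finset ι) :
    |∑ x : Fin n → Fin 2, sg (∑ i, x i) *
      ∑ z, if ∀ i ∈ T, z i = 0 then ‖(U *ᵥ vec e g x) z‖ ^ 2 else 0| ≤ 2 ^ n * c := by
  have h1 : ((∑ x : Fin n → Fin 2, sg (∑ i, x i) *
      ∑ z, if ∀ i ∈ T, z i = 0 then ‖(U *ᵥ vec e g x) z‖ ^ 2 else 0 : ℝ) : ℂ) =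
      ∑ x : Fin n → Fin 2, sgn (∑ i, x i) * form (star U * PP T * U) (vec e g x) (vec e g x) := by
    rw [Complex.ofReal_sum]
    refine Finset.sum_congr rfl fun x _ => ?_
    rw [Complex.ofReal_mul, sg_cast, form_conj, form_PP]
  rw [← Real.norm_eq_abs, ← Complex.norm_real, h1, sum_form e g hg]
  refine (norm_sum_le _ _).trans ?_
  refine (Finset.sum_le_card_nsmul _ _ c fun s _ => ?_).trans (by simp)
  have hW : Circ d (star (U * tens (locH e s))) := (hU.mul_loc (isLoc_locH e s)).star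
  refine le_trans (le_of_eq ?_)
    ((norm_form_le _ _ _ (hm 0) (hm 1)).trans (hL _ hW (univ.map e) T))
  have h2 : PP (univ.map e) * star (U * tens (locH e s)) * PP T * star (star (U * tens (locH e s)))
      * QQ (univ.map e) n = star (PP (univ.map e)) *
        (star (tens (locH e s)) * (star U * PP T * U) * tens (locH e s)) * QQ (univ.map e) n := by
    rw [star_star, star_mul, PP_star]
    simp only [mul_assoc]
  rw [h2, form_conj _ (PP _), PP_vec, QQ_vec, form_conj _ (tens _)]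

/-- The unitary which adds the bit string `m` to the basis states. -/
noncomputable def shift (m : ι → Fin 2) : Op ι :=
  tens fun i => Matrix.of fun a b => if b = a + m i then 1 else 0

theorem isLoc_shift (m : ι → Fin 2) : IsLoc (shift m) := by
  refine ⟨_, fun i => ?_, rfl⟩
  rw [Matrix.mem_unitaryGroup_iff]
  ext a b
  generalize m i = t
  fin_cases a <;> fin_cases b <;> fin_cases t <;>
    simp [Matrix.mul_apply, Matrix.star_apply]

theorem shift_mulVec (m : ι → Fin 2) (φ : (ι → Fin 2) → ℂ) (z : ι → Fin 2) :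
    (shift m *ᵥ φ) z = φ (z + m) := by
  simp only [mulVec, dotProduct]
  rw [Finset.sum_eq_single (z + m)]
  · rw [shift, tens_apply, Finset.prod_eq_one fun i _ => by simp, one_mul]
  · intro w _ hw
    obtain ⟨k, hk⟩ := Function.ne_iff.mp hw
    rw [shift, tens_apply, Finset.prod_eq_zero (Finset.mem_univ k), zero_mul]
    exact if_neg hk
  · intro h
    exact absurd (Finset.mem_univ _) h

theorem add_add_self (z m : ι → Fin 2) : z + m + m = z := by
  funext i
  simp only [Pi.add_apply]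
  generalize z i = a
  generalize m i = b
  revert a b
  decide

/-- The parity bias of the event that the qubits of `T` read `y`. -/
theorem key {d : ℕ} {c : ℝ} (hL : Lam ι d n c) (e : Fin n ↪ ι) (g : (ι → Fin 2) → ℂ)
    (hg : ∀ z z', (∀ k, (¬ ∃ i, e i = k) → z k = z' k) → g z = g z')
    (hm : ∀ x, ∑ z, ‖vec e g x z‖ ^ 2 ≤ 1) {U : Op ι} (hU : Circ d U) (T : Finset ι)
    (y : ι → Fin 2) :
    |∑ x : Fin n → Fin 2, sg (∑ i, x i) *
      ∑ z, if ∀ i ∈ T, z i = y i then ‖(U *ᵥ vec e g x) z‖ ^ 2 else 0| ≤ 2 ^ n * c := by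
  have h := key_zero hL e g hg hm (hU.loc_mul (isLoc_shift y)) T
  refine le_trans (le_of_eq ?_) h
  congr 1
  refine Finset.sum_congr rfl fun x _ => ?_
  congr 1
  rw [← Equiv.sum_comp (Equiv.addRight y)]
  refine Finset.sum_congr rfl fun z _ => ?_
  rw [← Matrix.mulVec_mulVec, shift_mulVec, Equiv.coe_addRight]
  refine if_congr (forall₂_congr fun i _ => ?_) rfl rfl
  exact add_eq_right

end Vale.Agent.N368V
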