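import Vale.Agent.N368.Layer
import Vale.Agent.N368V.Defs
import Vale.Agent.N368V.Key

/-!
# P368: gates as matrices, and gates acting on a part of a larger register
-/

namespace Vale.Agent.N368V

open Matrix Finset Vale.Agent.N368

variable {N r : ℕ}

/-- The same gate in the matrix model. -/
def Gate.toS : Gate N → Stmt.Gate N
  | .one q u => .one q u
  | .toffoli c t h1 h2 => .toffoli c t h1 h2

theorem Gate.support_toS (g : Gate N) : g.toS.support = g.qubits := by cases g <;> rfl

theorem add_add_bit (a b : Fin 2) : a + b + b = a := by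
  revert a b
  decide

theorem Gate.act_eq (g : Gate N) (φ : State N) : g.act φ = g.toS.mat *ᵥ φ := by
  funext z
  cases g with
  | one q u =>
    simp only [Gate.act, Gate.toS, Stmt.Gate.mat, mulVec, dotProduct, Matrix.of_apply]
    refine Finset.sum_of_injOn (fun b => Function.update z q b) ?_ (fun _ _ => mem_univ _) ?_ ?_
    · intro b _ b' _ h
      have := congrFun h q
      simpa using this
    · intro x _ hx
      rw [if_neg, zero_mul]
      intro h
      refine hx ⟨x q, by simp, funext fun i => ?_⟩
      by_cases hi : i = q
      · subst hi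
        simp
      · simp only [Function.update_of_ne hi, h i hi]
    · intro b _
      rw [if_pos fun i hi => (Function.update_of_ne hi _ _).symm, Function.update_self]
  | toffoli c t hc ht =>
    simp only [Gate.act, Gate.toS, Stmt.Gate.mat, mulVec, dotProduct, Matrix.of_apply]
    have hp : ∀ (x : Fin N → Fin 2) (b : Fin 2),
        ∏ i ∈ c, Function.update x t b i = ∏ i ∈ c, x i := fun x b =>
      Finset.prod_congr rfl fun i hi => Function.update_of_ne (ne_of_mem_of_not_mem hi ht) _ _
    rw [Finset.sum_eq_single (Function.update z t (z t + ∏ i ∈ c, z i))]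
    · rw [if_pos, one_mul]
      rw [hp, Function.update_self, Function.update_idem, add_add_bit, Function.update_eq_self]
    · intro x _ hx
      rw [if_neg, zero_mul]
      rintro rfl
      apply hx
      rw [hp, Function.update_self, Function.update_idem, add_add_bit, Function.update_eq_self]
    · intro h
      exact absurd (mem_univ _) h

/-- The matrix of a list of gates. -/
noncomputable def layerMat (L : List (Gate N)) : Op (Fin N) :=
  ((L.map Gate.toS).map Stmt.Gate.mat).prod

theorem layerAct_eq (L : List (Gate N)) (φ : State N) : layerAct L φ = layerMat L *ᵥ φ := by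
  induction L with
  | nil => simp [layerAct, layerMat]
  | cons g L ih =>
    have h1 : layerAct (g :: L) φ = g.act (layerAct L φ) := rfl
    have h2 : layerMat (g :: L) = g.toS.mat * layerMat L := by simp [layerMat]
    rw [h1, h2, ih, Gate.act_eq, Matrix.mulVec_mulVec]

theorem circ_layerMat {L : List (Gate N)} (hL : IsLayer L) {d : ℕ} {U : Op (Fin N)}
    (hU : Circ d U) : Circ (d + 1) (layerMat L * U) := by
  have h : (L.map Gate.toS).Pairwise fun g h => Disjoint g.support h.support := by
    rw [List.pairwise_map]
    simp only [Gate.support_toS]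
    exact hL
  obtain ⟨A, B, a1, b1, -, -, p, -, hX⟩ := shape_list _ h
  have := Circ.left (hU.loc_mul ⟨B, b1, rfl⟩) ⟨_, p, rfl⟩ ⟨A, a1, rfl⟩
  unfold layerMat
  rw [hX]
  simpa only [mul_assoc] using this

theorem mass_mulVec {U : Op (Fin N)} (hU : U ∈ unitary (Op (Fin N))) (φ : State N) :
    mass (U *ᵥ φ) = mass φ := by
  have h0 : PP (∅ : Finset (Fin N)) = 1 := by
    unfold PP
    simp [hw]
  have h1 : ∀ χ : State N, form 1 χ χ = ((mass χ : ℝ) : ℂ) := by
    intro χ
    rw [← h0, form_PP]
    simp [mass]
  have h2 := form_conj 1 U U φ φ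
  rw [mul_one, (Unitary.mem_iff.mp hU).1, h1, h1] at h2
  exact_mod_cast h2.symm

theorem mass_layerAct {L : List (Gate N)} (hL : IsLayer L) (φ : State N) :
    mass (layerAct L φ) = mass φ := by
  have h : Circ 0 (1 : Op (Fin N)) := IsLoc.one
  have h1 := (circ_layerMat hL h).unitary
  rw [mul_one] at h1
  rw [layerAct_eq, mass_mulVec h1]

theorem layerAct_zero (L : List (Gate N)) : layerAct L 0 = 0 := by
  rw [layerAct_eq, mulVec_zero]

/-- The same gate on the first `N` of `N + r` qubits. -/
def Gate.lift (r : ℕ) : Gate N → Gate (N + r)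
  | .one q u => .one (Fin.castAdd r q) u
  | .toffoli c t h1 h2 => .toffoli (c.map (Fin.castAddEmb r)) (Fin.castAdd r t) h1.map
      fun h => h2 ((Finset.mem_map' (Fin.castAddEmb r)).1 h)

theorem Gate.qubits_lift (g : Gate N) : (g.lift r).qubits = g.qubits.map (Fin.castAddEmb r) := by
  cases g with
  | one q u => simp [Gate.lift, Gate.qubits]
  | toffoli c t h1 h2 => simp [Gate.lift, Gate.qubits, Finset.map_insert]

theorem IsLayer.lift {L : List (Gate N)} (h : IsLayer L) : IsLayer (L.map (Gate.lift r)) := by
  unfold IsLayer at h ⊢
  rw [List.pairwise_map]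
  refine h.imp fun hd => ?_
  rw [Gate.qubits_lift, Gate.qubits_lift]
  exact (Finset.disjoint_map _).2 hd

/-- The amplitudes with the last `r` qubits fixed to `w`. -/
def slice (χ : State (N + r)) (w : Fin r → Fin 2) : State N := fun z => χ (Fin.append z w)

theorem castAdd_ne_natAdd (i : Fin N) (j : Fin r) : Fin.castAdd r i ≠ Fin.natAdd N j := by
  intro h
  have := congrArg Fin.val h
  have := i.2
  simp only [Fin.val_castAdd, Fin.val_natAdd] at *
  omega

theorem update_append_left (z : Fin N → Fin 2) (w : Fin r → Fin 2) (q : Fin N) (b : Fin 2) :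
    Function.update (Fin.append z w) (Fin.castAdd r q) b = Fin.append (Function.update z q b) w := by
  funext k
  refine Fin.addCases (fun i => ?_) (fun j => ?_) k
  · by_cases hi : i = q
    · subst hi
      simp
    · rw [Function.update_of_ne (fun h => hi (Fin.castAdd_inj.1 h)), Fin.append_left,
        Fin.append_left, Function.update_of_ne hi]
  · rw [Function.update_of_ne (castAdd_ne_natAdd q j).symm, Fin.append_right, Fin.append_right]

theorem update_append_right (z : Fin N → Fin 2) (w : Fin r → Fin 2) (q : Fin r) (b : Fin 2) :
    Function.update (Fin.append z w) (Fin.natAdd N q) b = Fin.append z (Function.update w q b) := by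
  funext k
  refine Fin.addCases (fun i => ?_) (fun j => ?_) k
  · rw [Function.update_of_ne (castAdd_ne_natAdd i q), Fin.append_left, Fin.append_left]
  · by_cases hj : j = q
    · subst hj
      simp
    · rw [Function.update_of_ne (fun h => hj ((Fin.natAdd_inj N).1 h)), Fin.append_right,
        Fin.append_right, Function.update_of_ne hj]

theorem slice_act (g : Gate N) (χ : State (N + r)) (w : Fin r → Fin 2) :
    slice ((g.lift r).act χ) w = g.act (slice χ w) := by
  funext z
  cases g with
  | one q u =>
    simp only [slice, Gate.lift, Gate.act, update_append_left, Fin.append_left]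
  | toffoli c t h1 h2 =>
    simp only [slice, Gate.lift, Gate.act, update_append_left, Fin.append_left, Finset.prod_map,
      Fin.castAddEmb_apply]

theorem slice_layerAct (L : List (Gate N)) (χ : State (N + r)) (w : Fin r → Fin 2) :
    slice (layerAct (L.map (Gate.lift r)) χ) w = layerAct L (slice χ w) := by
  induction L with
  | nil => rfl
  | cons g L ih =>
    have h1 : layerAct ((g :: L).map (Gate.lift r)) χ =
      (g.lift r).act (layerAct (L.map (Gate.lift r)) χ) := rfl
    have h2 : layerAct (g :: L) (slice χ w) = g.act (layerAct L (slice χ w)) := rfl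
    rw [h1, h2, slice_act, ih]

theorem sum_append (F : (Fin (N + r) → Fin 2) → ℝ) :
    ∑ z, F z = ∑ w : Fin r → Fin 2, ∑ z : Fin N → Fin 2, F (Fin.append z w) := by
  rw [← Equiv.sum_comp (Fin.appendEquiv N r), Fintype.sum_prod_type, Finset.sum_comm]
  rfl

end Vale.Agent.N368V
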