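import Vale.Agent.N368V.Bridge

/-!
# P368: deferred measurements and the induction over protocol trees
-/

namespace Vale.Agent.N368V

open Matrix Finset Vale.Agent.N368
open scoped Matrix.Norms.L2Operator

variable {N r n : ℕ}

/-- Subcubes of the set of bit strings, the empty set included. -/
def IsCube (E : (Fin N → Fin 2) → Prop) : Prop :=
  (∀ z, ¬ E z) ∨ ∃ (T : Finset (Fin N)) (y : Fin N → Fin 2), ∀ z, E z ↔ ∀ i ∈ T, z i = y i

theorem isCube_true : IsCube fun _ : Fin N → Fin 2 => True := Or.inr ⟨∅, 0, by simp⟩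

theorem IsCube.and {E : (Fin N → Fin 2) → Prop} (h : IsCube E) (q : Fin N) (b : Fin 2) :
    IsCube fun z => E z ∧ z q = b := by
  rcases h with h | ⟨T, y, h⟩
  · exact Or.inl fun z hz => h z hz.1
  · by_cases hq : q ∈ T
    · by_cases hb : y q = b
      · refine Or.inr ⟨T, y, fun z => ⟨fun hz => (h z).1 hz.1, fun hz => ⟨(h z).2 hz, ?_⟩⟩⟩
        rw [hz q hq, hb]
      · exact Or.inl fun z hz => hb (by rw [← (h z).1 hz.1 q hq, hz.2])
    · refine Or.inr ⟨insert q T, Function.update y q b, fun z => ?_⟩
      show (E z ∧ z q = b) ↔ _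
      rw [Finset.forall_mem_insert, Function.update_self, h z, and_comm]
      refine and_congr_right fun _ => forall₂_congr fun i hi => ?_
      rw [Function.update_of_ne (ne_of_mem_of_not_mem hi hq)]

open Classical in
/-- The part of `φ` supported on `E`. -/
noncomputable def cut (E : (Fin N → Fin 2) → Prop) (φ : State N) : State N :=
  fun z => if E z then φ z else 0

theorem cut_true (φ : State N) : cut (fun _ => True) φ = φ := by
  funext z
  simp [cut]

theorem proj_cut (E : (Fin N → Fin 2) → Prop) (φ : State N) (q : Fin N) (b : Fin 2) :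
    proj q b (cut E φ) = cut (fun z => E z ∧ z q = b) φ := by
  funext z
  unfold proj cut
  by_cases h1 : E z <;> by_cases h2 : z q = b <;> simp [h1, h2]

/-- The state `Φ x` of a branch is the part of `U V x` in which the `r` extra qubits read `w`;
the extra qubits from the `j`-th one on are still unused. -/
structure Inv {X : Type} (V : X → State (N + r)) (j : ℕ) (w : Fin r → Fin 2)
    (U : Op (Fin (N + r))) (Φ : X → State N) : Prop where
  wz : ∀ i : Fin r, j ≤ i.1 → w i = 0
  eq : ∀ x, slice (U *ᵥ V x) w = Φ x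
  supp : ∀ x (w' : Fin r → Fin 2) (i : Fin r), j ≤ i.1 → w' i = 1 → slice (U *ᵥ V x) w' = 0

variable {X : Type} {V : X → State (N + r)} {j : ℕ} {w : Fin r → Fin 2} {U : Op (Fin (N + r))}
  {Φ : X → State N}

theorem Inv.layer (h : Inv V j w U Φ) (L : List (Gate N)) :
    Inv V j w (layerMat (L.map (Gate.lift r)) * U) fun x => layerAct L (Φ x) := by
  have h1 : ∀ x w', slice ((layerMat (L.map (Gate.lift r)) * U) *ᵥ V x) w' =
      layerAct L (slice (U *ᵥ V x) w') := by
    intro x w'
    rw [← Matrix.mulVec_mulVec, ← layerAct_eq, slice_layerAct]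
  refine ⟨h.wz, fun x => ?_, fun x w' i hi hw => ?_⟩
  · rw [h1, h.eq]
  · rw [h1, h.supp x w' i hi hw, layerAct_zero]

theorem append_add (z z' : Fin N → Fin 2) (w w' : Fin r → Fin 2) :
    Fin.append z w + Fin.append z' w' = Fin.append (z + z') (w + w') := by
  funext k
  refine Fin.addCases (fun i => ?_) (fun j => ?_) k <;> simp

/-- Recording in the extra qubit `t` whether the qubits of `T` read `y`. -/
theorem exists_record (T : Finset (Fin N)) (hT : T.Nonempty) (y : Fin N → Fin 2) (t : Fin r)
    {d : ℕ} (hU : Circ d U) :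
    ∃ U' : Op (Fin (N + r)), Circ (d + 1) U' ∧ ∀ (χ : State (N + r)) (w' : Fin r → Fin 2) z,
      slice (U' *ᵥ χ) w' z = slice (U *ᵥ χ)
        (Function.update w' t (w' t + if ∀ i ∈ T, z i = y i then 1 else 0)) z := by
  set m : Fin (N + r) → Fin 2 := Fin.append (fun i => y i + 1) 0 with hm
  have hd : Fin.natAdd N t ∉ T.map (Fin.castAddEmb r) := by
    intro h
    obtain ⟨i, -, hi⟩ := Finset.mem_map.1 h
    exact castAdd_ne_natAdd i t hi
  set G : Gate (N + r) := .toffoli (T.map (Fin.castAddEmb r)) (Fin.natAdd N t) hT.map hd with hG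
  have hL : IsLayer [G] := List.pairwise_singleton _ _
  refine ⟨shift m * (layerMat [G] * (shift m * U)),
    (circ_layerMat hL (hU.loc_mul (isLoc_shift m))).loc_mul (isLoc_shift m), fun χ w' z => ?_⟩
  have h1 : ∀ ξ : State (N + r), layerAct [G] ξ = G.act ξ := fun _ => rfl
  unfold slice
  rw [← Matrix.mulVec_mulVec, ← Matrix.mulVec_mulVec, ← Matrix.mulVec_mulVec, shift_mulVec,
    ← layerAct_eq, h1, hG]
  simp only [Gate.act]
  rw [shift_mulVec, hm, append_add, add_zero, update_append_right, append_add, add_zero,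
    add_add_self, Fin.append_right, Finset.prod_map, prod_bits]
  have h2 : (∀ i ∈ T, Fin.append (z + fun i => y i + 1) w' (Fin.castAddEmb r i) = 1) ↔
      ∀ i ∈ T, z i = y i := by
    refine forall₂_congr fun i _ => ?_
    rw [Fin.castAddEmb_apply, Fin.append_left, Pi.add_apply]
    generalize z i = a
    generalize y i = b
    revert a b
    decide
  by_cases hz : ∀ i ∈ T, z i = y i
  · rw [if_pos hz, if_pos (h2.2 hz)]
  · rw [if_neg hz, if_neg fun h => hz (h2.1 h)]

theorem Inv.flush (h : Inv V j w U Φ) (hj : j < r) {d : ℕ} (hU : Circ d U)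
    {E : (Fin N → Fin 2) → Prop} (hE : IsCube E) :
    ∃ w' U', Circ (d + 1) U' ∧ Inv V (j + 1) w' U' fun x => cut E (Φ x) := by
  set t : Fin r := ⟨j, hj⟩ with ht
  have hne : ∀ i : Fin r, j + 1 ≤ i.1 → i ≠ t := by
    rintro i hi rfl
    simp only [ht] at hi
    omega
  have hwz : ∀ i : Fin r, j + 1 ≤ i.1 → Function.update w t 1 i = 0 := fun i hi => by
    rw [Function.update_of_ne (hne i hi), h.wz i (by omega)]
  rcases hE with hE | ⟨T, y, hE⟩
  · refine ⟨Function.update w t 1, U, hU.succ, hwz, fun x => ?_,
      fun x w' i hi hw => h.supp x w' i (by omega) hw⟩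
    rw [h.supp x _ t le_rfl (Function.update_self _ _ _)]
    funext z
    simp [cut, hE z]
  · rcases T.eq_empty_or_nonempty with rfl | hT
    · refine ⟨w, U, hU.succ, fun i hi => h.wz i (by omega), fun x => ?_,
        fun x w' i hi hw => h.supp x w' i (by omega) hw⟩
      rw [h.eq]
      funext z
      simp [cut, hE z]
    · obtain ⟨U', h1, h2⟩ := exists_record T hT y t hU
      refine ⟨Function.update w t 1, U', h1, hwz, fun x => ?_, fun x w' i hi hw => ?_⟩
      · funext z
        rw [h2, Function.update_idem, Function.update_self]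
        unfold cut
        by_cases hz : E z
        · have h3 : (1 : Fin 2) + 1 = w t := (h.wz t le_rfl).symm ▸ rfl
          rw [if_pos hz, if_pos ((hE z).1 hz), h3, Function.update_eq_self, h.eq]
        · rw [if_neg hz, if_neg fun h' => hz ((hE z).2 h'), add_zero,
            h.supp x _ t le_rfl (Function.update_self _ _ _)]
          rfl
      · funext z
        rw [h2, h.supp x _ i (by omega) (by rw [Function.update_of_ne (hne i hi), hw])]

section main

variable {c : ℝ} {e : Fin n ↪ Fin (N + r)} {g : (Fin (N + r) → Fin 2) → ℂ}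

theorem mass_bias (hL : Lam (Fin (N + r)) (2 * r) n c)
    (hg : ∀ z z', (∀ k, (¬ ∃ i, e i = k) → z k = z' k) → g z = g z')
    (hm : ∀ x, ∑ z, ‖vec e g x z‖ ^ 2 ≤ 1) {Φ : (Fin n → Fin 2) → State N}
    (h : Inv (vec e g) j w U Φ) (hU : Circ (2 * r) U) {E : (Fin N → Fin 2) → Prop}
    (hE : IsCube E) :
    |∑ x : Fin n → Fin 2, sg (∑ i, x i) * mass (cut E (Φ x))| ≤ 2 ^ n * c := by
  rcases hE with hE | ⟨T, y, hE⟩
  · have hc : 0 ≤ c := (norm_nonneg _).trans (hL U hU ∅ ∅)
    have : ∀ x, mass (cut E (Φ x)) = 0 := fun x => by simp [mass, cut, hE]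
    simp only [this, mul_zero, Finset.sum_const_zero, abs_zero]
    positivity
  · have hk := key hL e g hg hm hU (T.map (Fin.castAddEmb r) ∪ univ.map (Fin.natAddEmb N))
      (Fin.append y w)
    refine le_trans (le_of_eq ?_) hk
    congr 1
    refine Finset.sum_congr rfl fun x _ => ?_
    congr 1
    rw [sum_append, Finset.sum_eq_single w]
    · unfold mass
      refine Finset.sum_congr rfl fun z _ => ?_
      unfold cut
      by_cases hz : E z
      · rw [if_pos hz, if_pos, ← h.eq]
        · rfl
        · intro k hk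
          rcases Finset.mem_union.1 hk with hk | hk
          · obtain ⟨i, hi, rfl⟩ := Finset.mem_map.1 hk
            rw [Fin.castAddEmb_apply, Fin.append_left, Fin.append_left, (hE z).1 hz i hi]
          · obtain ⟨i, -, rfl⟩ := Finset.mem_map.1 hk
            rw [Fin.natAddEmb_apply, Fin.append_right, Fin.append_right]
      · rw [if_neg hz, if_neg]
        · simp
        · intro h'
          refine hz ((hE z).2 fun i hi => ?_)
          have := h' _ (Finset.mem_union_left _ (Finset.mem_map_of_mem _ hi))
          rwa [Fin.castAddEmb_apply, Fin.append_left, Fin.append_left] at this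
    · intro w' _ hw'
      refine Finset.sum_eq_zero fun z _ => if_neg fun h' => hw' (funext fun i => ?_)
      have := h' _ (Finset.mem_union_right _ (Finset.mem_map_of_mem _ (mem_univ i)))
      rwa [Fin.natAddEmb_apply, Fin.append_right, Fin.append_right] at this
    · intro h'
      exact absurd (mem_univ _) h'

theorem bias_le (hL : Lam (Fin (N + r)) (2 * r) n c)
    (hg : ∀ z z', (∀ k, (¬ ∃ i, e i = k) → z k = z' k) → g z = g z')
    (hm : ∀ x, ∑ z, ‖vec e g x z‖ ^ 2 ≤ 1) (P : Protocol N) :
    ∀ (j : ℕ) (w : Fin r → Fin 2) (U : Op (Fin (N + r))) (Φ : (Fin n → Fin 2) → State N)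
      (E : (Fin N → Fin 2) → Prop), Inv (vec e g) j w U Φ → Circ (2 * j) U → IsCube E →
      j + P.depth ≤ r →
      |∑ x : Fin n → Fin 2, sg (∑ i, x i) *
        (P.prob (cut E (Φ x)) 0 - P.prob (cut E (Φ x)) 1)| ≤ P.branches * (2 ^ n * c) := by
  induction P with
  | stop o =>
    intro j w U Φ E h hU hE hj
    have hb := mass_bias hL hg hm h (hU.mono (by simp only [Protocol.depth] at hj; omega)) hE
    simp only [Protocol.prob, Protocol.branches, Nat.cast_one, one_mul]
    rcases o with _ | b
    · simpa using (abs_nonneg _).trans hb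
    · fin_cases b
      · simpa using hb
      · simpa [abs_neg] using hb
  | measure q next ih =>
    intro j w U Φ E h hU hE hj
    simp only [Protocol.depth] at hj
    have h0 := ih 0 j w U Φ _ h hU (hE.and q 0) (by omega)
    have h1 := ih 1 j w U Φ _ h hU (hE.and q 1) (by omega)
    simp only [Protocol.prob, Protocol.branches, proj_cut, Nat.cast_add, add_mul]
    refine le_trans (le_of_eq ?_) ((abs_add_le _ _).trans (add_le_add h0 h1))
    rw [← Finset.sum_add_distrib]
    congr 1
    exact Finset.sum_congr rfl fun x _ => by ring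
  | layer L hL' next ih =>
    intro j w U Φ E h hU hE hj
    simp only [Protocol.depth] at hj
    obtain ⟨w', U', h1, h2⟩ := h.flush (by omega) hU hE
    have h3 := ih (j + 1) w' _ _ _ (h2.layer L) (circ_layerMat hL'.lift h1) isCube_true (by omega)
    simpa only [Protocol.prob, Protocol.branches, cut_true] using h3

end main

end Vale.Agent.N368V
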