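import Vale.Agent.N368.Main
import Vale.Agent.N368V.Tree

/-!
# P368: parity against adaptive protocols with quantum advice and postselection
-/

namespace Vale.Agent.N368V

open Matrix Finset Vale.Agent.N368 Filter Topology

variable {N n a r : ℕ}

theorem mass_input (x : Fin n → Fin 2) (ψ : State a) : mass (input x ψ) = mass ψ := by
  unfold mass
  rw [sum_append]
  refine Finset.sum_congr rfl fun w _ => ?_
  rw [Finset.sum_eq_single x]
  · simp [input]
  · intro z _ hz
    have : ¬ ∀ i, z i = x i := fun h => hz (funext h)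
    simp [input, this]
  · intro h
    exact absurd (mem_univ _) h

theorem mass_zeros : mass (zeros a) = 1 := by
  unfold mass
  rw [Finset.sum_eq_single 0]
  · simp [zeros]
  · intro z _ hz
    have : ¬ ∀ i, z i = 0 := fun h => hz (funext h)
    simp [zeros, this]
  · intro h
    exact absurd (mem_univ _) h

theorem sg_mul_sub (b : Fin 2) (f : Fin 2 → ℝ) : sg b * (f 0 - f 1) = f b - f (b + 1) := by
  fin_cases b
  · simp [sg]
  · have : (1 : Fin 2) + 1 = 0 := rfl
    simp [sg, this]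

/-- The localization bound controls the parity correlation of a protocol. -/
theorem corr_le_of_lam {c : ℝ} (hL : Lam (Fin (n + a + r)) (2 * r) n c) (ψ : State a)
    (hψ : mass ψ = 1) (P : Protocol (n + a)) (hP : P.depth ≤ r) :
    |(∑ x : Fin n → Fin 2, (P.prob (input x ψ) (∑ i, x i) - P.prob (input x ψ) (∑ i, x i + 1))) /
      2 ^ n| ≤ P.branches * c := by
  set e : Fin n ↪ Fin (n + a + r) := (Fin.castAddEmb a).trans (Fin.castAddEmb r) with he
  set g : (Fin (n + a + r) → Fin 2) → ℂ := fun z =>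
    if ∀ j, z (Fin.natAdd (n + a) j) = 0 then ψ fun j => z (Fin.castAdd r (Fin.natAdd n j)) else 0
    with hgdef
  have hg : ∀ z z', (∀ k, (¬ ∃ i, e i = k) → z k = z' k) → g z = g z' := by
    intro z z' h
    have h1 : ∀ j, z (Fin.natAdd (n + a) j) = z' (Fin.natAdd (n + a) j) := fun j =>
      h _ fun ⟨i, hi⟩ => castAdd_ne_natAdd _ _ hi
    have h2 : ∀ j, z (Fin.castAdd r (Fin.natAdd n j)) = z' (Fin.castAdd r (Fin.natAdd n j)) :=
      fun j => h _ fun ⟨i, hi⟩ => castAdd_ne_natAdd _ _ (Fin.castAdd_inj.1 hi)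
    simp only [hgdef, h1, h2]
  have hs : ∀ x w, slice (vec e g x) w = if w = 0 then input x ψ else 0 := by
    intro x w
    funext z
    have h1 : ∀ i, e i = Fin.castAdd r (Fin.castAdd a i) := fun _ => rfl
    simp only [slice, vec, hgdef, h1, Fin.append_left, Fin.append_right]
    by_cases hw : w = 0
    · simp [hw, input]
    · have : ¬ ∀ j, w j = 0 := fun h => hw (funext h)
      simp [hw, this]
  have hm : ∀ x, ∑ z, ‖vec e g x z‖ ^ 2 ≤ 1 := by
    intro x
    rw [sum_append]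
    have h1 : ∀ w, ∑ z : Fin (n + a) → Fin 2, ‖vec e g x (Fin.append z w)‖ ^ 2 =
        mass (slice (vec e g x) w) := fun _ => rfl
    simp only [h1, hs]
    rw [Finset.sum_eq_single 0, if_pos rfl, mass_input, hψ]
    · intro w _ hw
      simp [hw, mass]
    · intro h
      exact absurd (mem_univ _) h
  have hI : Inv (vec e g) 0 0 1 fun x => input x ψ := by
    refine ⟨fun _ _ => rfl, fun x => ?_, fun x w' i _ hw => ?_⟩
    · rw [one_mulVec, hs, if_pos rfl]
    · rw [one_mulVec, hs, if_neg]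
      rintro rfl
      exact absurd hw zero_ne_one
  have h := bias_le hL hg hm P 0 0 1 _ _ hI IsLoc.one isCube_true (by omega)
  simp only [cut_true, sg_mul_sub] at h
  rw [abs_div, abs_of_pos (by positivity : (0 : ℝ) < 2 ^ n), div_le_iff₀ (by positivity)]
  linarith

/-- `n^(1-δ/2)` eventually exceeds `2 n^(1-δ) + K`. -/
theorem eventually_gap {δ : ℝ} (hδ : 0 < δ) (K : ℝ) :
    ∀ᶠ n : ℕ in atTop, 2 * (n : ℝ) ^ (1 - δ) + K ≤ (n : ℝ) ^ (1 - min δ 1 / 2) := by
  set η := min δ 1 / 2 with hη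
  have hη0 : 0 < η := by
    have := lt_min hδ zero_lt_one
    linarith
  have hη1 : η ≤ 1 / 2 := by
    have := min_le_right δ 1
    linarith
  have hηδ : 2 * η ≤ δ := by
    have := min_le_left δ 1
    linarith
  have ht : Tendsto (fun n : ℕ => (n : ℝ) ^ η) atTop atTop :=
    (tendsto_rpow_atTop hη0).comp tendsto_natCast_atTop_atTop
  filter_upwards [ht.eventually_ge_atTop (2 + |K|), eventually_ge_atTop 1] with n h1 h2
  have hn : (1 : ℝ) ≤ n := by exact_mod_cast h2
  have h3 : (n : ℝ) ^ (1 - δ) ≤ (n : ℝ) ^ (1 - 2 * η) :=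
    Real.rpow_le_rpow_of_exponent_le hn (by linarith)
  have h4 : (1 : ℝ) ≤ (n : ℝ) ^ (1 - 2 * η) := Real.one_le_rpow hn (by linarith)
  have h5 : (n : ℝ) ^ (1 - η) = (n : ℝ) ^ (1 - 2 * η) * (n : ℝ) ^ η := by
    rw [← Real.rpow_add (by linarith)]
    congr 1
    ring
  have h6 := le_abs_self K
  have h7 := abs_nonneg K
  rw [h5]
  nlinarith

/-- The correlation bound with room to spare. -/
theorem corr_le (d e : ℕ) {δ : ℝ} (hδ : 0 < δ) (K : ℝ) :
    ∃ n₀ : ℕ, ∀ n ≥ n₀, ∀ a : ℕ, n + a ≤ n ^ e → ∀ ψ : State a, mass ψ = 1 →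
      ∀ P : Protocol (n + a), P.depth ≤ d → (P.branches : ℝ) ≤ Real.exp ((n : ℝ) ^ (1 - δ)) →
        |(∑ x : Fin n → Fin 2, (P.prob (input x ψ) (∑ i, x i) -
          P.prob (input x ψ) (∑ i, x i + 1))) / 2 ^ n| ≤
            Real.exp (-((n : ℝ) ^ (1 - δ) + K)) := by
  have hη0 : 0 < min δ 1 / 2 := by
    have := lt_min hδ zero_lt_one
    linarith
  obtain ⟨n1, h1⟩ := Main.lam_stretched (2 * d) (e + 1) hη0
  obtain ⟨n2, h2⟩ := eventually_atTop.1 (eventually_gap hδ K)
  refine ⟨n1 + n2 + d + 2, fun n hn a ha ψ hψ P hP hb => ?_⟩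
  have hN : n + a + d ≤ n ^ (e + 1) := by
    have h3 : n ^ e * 2 ≤ n ^ e * n := Nat.mul_le_mul_left _ (by omega)
    rw [pow_succ]
    omega
  obtain ⟨c, hc1, hc2⟩ := h1 n (by omega) _ hN
  have h4 := corr_le_of_lam hc1 ψ hψ P hP
  have h5 := h2 n (by omega)
  have h6 : c ≤ Real.exp (-(n : ℝ) ^ (1 - min δ 1 / 2)) := by
    have := Real.exp_pos (-(n : ℝ) ^ (1 - min δ 1 / 2))
    linarith
  refine h4.trans ?_
  calc (P.branches : ℝ) * c
      ≤ P.branches * Real.exp (-(n : ℝ) ^ (1 - min δ 1 / 2)) :=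
        mul_le_mul_of_nonneg_left h6 (Nat.cast_nonneg _)
    _ ≤ Real.exp ((n : ℝ) ^ (1 - δ)) * Real.exp (-(n : ℝ) ^ (1 - min δ 1 / 2)) :=
        mul_le_mul_of_nonneg_right hb (Real.exp_pos _).le
    _ ≤ _ := by
        rw [← Real.exp_add]
        exact Real.exp_le_exp.2 (by linarith)

/-- Clause (2). -/
theorem adaptive (d e : ℕ) (δ : ℝ) (hδ : 0 < δ) :
    ∃ n₀ : ℕ, ∀ n ≥ n₀, ∀ a : ℕ, n + a ≤ n ^ e → ∀ ψ : State a, mass ψ = 1 →
      ∀ P : Protocol (n + a), P.depth ≤ d → (P.branches : ℝ) ≤ Real.exp ((n : ℝ) ^ (1 - δ)) →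
        |(∑ x : Fin n → Fin 2, (P.prob (input x ψ) (∑ i, x i) -
          P.prob (input x ψ) (∑ i, x i + 1))) / 2 ^ n| ≤ Real.exp (-(n : ℝ) ^ (1 - δ)) := by
  simpa only [add_zero] using corr_le d e hδ 0

/-- Clause (3). -/
theorem postselected (d e : ℕ) (δ ε : ℝ) (hδ : 0 < δ) (hε : 0 < ε) :
    ∃ n₀ : ℕ, ∀ n ≥ n₀, ∀ a : ℕ, n + a ≤ n ^ e → ∀ ψ : State a, mass ψ = 1 →
      ∀ P : Protocol (n + a), P.depth ≤ d → (P.branches : ℝ) ≤ Real.exp ((n : ℝ) ^ (1 - δ)) →
        ¬ ∀ x : Fin n → Fin 2,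
          Real.exp (-(n : ℝ) ^ (1 - δ)) ≤ P.prob (input x ψ) 0 + P.prob (input x ψ) 1 ∧
          (1 / 2 + ε) * (P.prob (input x ψ) 0 + P.prob (input x ψ) 1) ≤
            P.prob (input x ψ) (∑ i, x i) := by
  obtain ⟨n₀, h⟩ := corr_le d e hδ (-Real.log ε)
  refine ⟨n₀, fun n hn a ha ψ hψ P hP hb hx => ?_⟩
  have h1 := h n hn a ha ψ hψ P hP hb
  set t := Real.exp (-(n : ℝ) ^ (1 - δ)) with ht
  have ht0 : 0 < t := Real.exp_pos _
  have h2 : Real.exp (-((n : ℝ) ^ (1 - δ) + -Real.log ε)) = t * ε := by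
    rw [neg_add, neg_neg, Real.exp_add, Real.exp_log hε]
  have h3 : ∀ x : Fin n → Fin 2, 2 * (t * ε) ≤
      P.prob (input x ψ) (∑ i, x i) - P.prob (input x ψ) (∑ i, x i + 1) := by
    intro x
    obtain ⟨k1, k2⟩ := hx x
    have k3 : P.prob (input x ψ) (∑ i, x i) + P.prob (input x ψ) (∑ i, x i + 1) =
        P.prob (input x ψ) 0 + P.prob (input x ψ) 1 := by
      generalize (∑ i, x i) = b
      fin_cases b
      · simp
      · have : (1 : Fin 2) + 1 = 0 := rfl
        simp [this, add_comm]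
    nlinarith
  have h4 := Finset.card_nsmul_le_sum univ _ _ fun x _ => h3 x
  simp only [Finset.card_univ, Fintype.card_pi, Fintype.card_fin, Finset.prod_const,
    nsmul_eq_mul, Nat.cast_pow, Nat.cast_ofNat] at h4
  rw [h2] at h1
  have h5 := (le_abs_self _).trans h1
  rw [div_le_iff₀ (by positivity)] at h5
  have h6 : (0 : ℝ) < 2 ^ n * (t * ε) := by positivity
  nlinarith

/-- A circuit followed by the measurement of one qubit, as a protocol. -/
theorem exists_protocol (C : List (List (Gate N))) (hC : ∀ L ∈ C, IsLayer L) (out : Fin N) :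
    ∃ P : Protocol N, P.depth = C.length ∧ P.branches = 2 ∧
      ∀ φ, mass (run C φ) = mass φ ∧ ∀ b, P.prob φ b = mass (proj out b (run C φ)) := by
  induction C with
  | nil =>
    refine ⟨.measure out fun b => .stop (some b), rfl, rfl, fun φ => ⟨rfl, fun b => ?_⟩⟩
    fin_cases b <;> simp [Protocol.prob, run]
  | cons L C ih =>
    obtain ⟨P, h1, h2, h3⟩ := ih fun L' hL' => hC L' (List.mem_cons_of_mem _ hL')
    have hL := hC L List.mem_cons_self
    refine ⟨.layer L hL P, by simp [Protocol.depth, h1], h2, fun φ => ⟨?_, fun b => ?_⟩⟩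
    · exact ((h3 (layerAct L φ)).1).trans (mass_layerAct hL φ)
    · exact (h3 (layerAct L φ)).2 b

theorem mass_proj_add (q : Fin N) (φ : State N) :
    mass (proj q 0 φ) + mass (proj q 1 φ) = mass φ := by
  unfold mass proj
  rw [← Finset.sum_add_distrib]
  refine Finset.sum_congr rfl fun z _ => ?_
  generalize z q = b
  fin_cases b <;> simp

/-- Clause (1). -/
theorem moore : ¬ ∃ (a : ℕ → ℕ) (C : ∀ n, List (List (Gate (n + a n)))) (out : ∀ n, Fin (n + a n))
    (d : ℕ) (p : Polynomial ℕ) (ε : ℝ), 0 < ε ∧ ∀ n, (∀ L ∈ C n, IsLayer L) ∧ (C n).length ≤ d ∧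
      n + a n ≤ p.eval n ∧ ∀ x : Fin n → Fin 2,
        1 / 2 + ε ≤ mass (proj (out n) (∑ i, x i) (run (C n) (input x (zeros (a n))))) := by
  rintro ⟨a, C, out, d, p, ε, hε, h⟩
  obtain ⟨e, n1, he⟩ := Main.poly_le_pow p
  obtain ⟨n2, h2⟩ := postselected d e (1 / 2) ε (by norm_num) hε
  set n := n1 + n2 + 1 with hn
  obtain ⟨k1, k2, k3, k4⟩ := h n
  obtain ⟨P, p1, p2, p3⟩ := exists_protocol (C n) k1 (out n)
  have hn1 : (1 : ℝ) ≤ n := by exact_mod_cast (show 1 ≤ n by omega)
  have hp : (1 : ℝ) ≤ (n : ℝ) ^ (1 - 1 / 2 : ℝ) := Real.one_le_rpow hn1 (by norm_num)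
  refine h2 n (by omega) (a n) (k3.trans (he n (by omega))) _ mass_zeros P (by omega) ?_
    fun x => ?_
  · have := Real.add_one_le_exp ((n : ℝ) ^ (1 - 1 / 2 : ℝ))
    rw [p2]
    push_cast
    linarith
  · have h1 : P.prob (input x (zeros (a n))) 0 + P.prob (input x (zeros (a n))) 1 = 1 := by
      rw [(p3 _).2, (p3 _).2, mass_proj_add, (p3 _).1, mass_input, mass_zeros]
    rw [h1, mul_one, (p3 _).2]
    exact ⟨Real.exp_le_one_iff.2 (by linarith), k4 x⟩

/-- Measuring the qubits of a list and answering the sum of the outcomes. -/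
def readList : List (Fin N) → Fin 2 → Protocol N
  | [], s => .stop (some s)
  | q :: l, s => .measure q fun b => readList l (s + b)

theorem readList_spec (l : List (Fin N)) : ∀ s : Fin 2, (readList l s).depth = 0 ∧
    (readList l s).branches = 2 ^ l.length ∧ ∀ φ b, (readList l s).prob φ b =
      ∑ z, if s + (l.map z).sum = b then ‖φ z‖ ^ 2 else 0 := by
  induction l with
  | nil =>
    intro s
    refine ⟨rfl, rfl, fun φ b => ?_⟩
    by_cases h : s = b <;> simp [readList, Protocol.prob, mass, h]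
  | cons q l ih =>
    intro s
    refine ⟨by simp [readList, Protocol.depth, (ih _).1], ?_, fun φ b => ?_⟩
    · simp only [readList, Protocol.branches, (ih _).2.1, List.length_cons]
      ring
    · simp only [readList, Protocol.prob, (ih _).2.2, ← Finset.sum_add_distrib, List.map_cons,
        List.sum_cons, proj, ← add_assoc]
      refine Finset.sum_congr rfl fun z _ => ?_
      generalize z q = t
      fin_cases t <;> simp

/-- Clause (4). -/
theorem read_all (n a : ℕ) (ψ : State a) (hψ : mass ψ = 1) :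
    ∃ P : Protocol (n + a), P.depth = 0 ∧ P.branches = 2 ^ n ∧
      ∀ x : Fin n → Fin 2, P.prob (input x ψ) (∑ i, x i) = 1 := by
  obtain ⟨h1, h2, h3⟩ := readList_spec (List.ofFn fun i : Fin n => Fin.castAdd a i) 0
  refine ⟨_, h1, by simpa using h2, fun x => ?_⟩
  rw [h3, ← hψ, ← mass_input x ψ]
  refine Finset.sum_congr rfl fun z _ => ?_
  split_ifs with h
  · rfl
  · rw [input, if_neg, norm_zero, zero_pow two_ne_zero]
    intro hz
    apply h
    rw [zero_add, List.map_ofFn, List.sum_ofFn]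
    exact Finset.sum_congr rfl fun i _ => hz i

end Vale.Agent.N368V
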