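import Vale.Agent.N368V.Main

/-!
# P368: parity in depth three with postselection on an event of probability `2^(-(n+1))`
-/

namespace Vale.Agent.N368V

open Matrix Finset Vale.Agent.N368 Vale.Agent.N368.Parity

variable {N n a : ℕ}

/-- The Hadamard gate. -/
noncomputable def hadamard : Matrix.unitaryGroup (Fin 2) ℂ := ⟨hz 0, hz_unitary 0⟩

/-- The number `1 / √2`. -/
noncomputable def kap : ℂ := ((Real.sqrt 2)⁻¹ : ℝ)

theorem hadamard_zero (b : Fin 2) : hadamard.1 b 0 = kap := by simp [hadamard, hz, kap]

theorem norm_kap_sq : ‖kap‖ ^ 2 = 1 / 2 := by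
  rw [kap, Complex.norm_real, Real.norm_eq_abs, sq_abs, inv_pow, Real.sq_sqrt (by norm_num)]
  norm_num

theorem act_one_input (k : Fin a) (u : Matrix.unitaryGroup (Fin 2) ℂ) (x : Fin n → Fin 2)
    (ψ : State a) :
    (Gate.one (Fin.natAdd n k) u).act (input x ψ) = input x ((Gate.one k u).act ψ) := by
  funext z
  obtain ⟨⟨y, w⟩, rfl⟩ := (Fin.appendEquiv n a).surjective z
  have h : (Fin.appendEquiv n a) (y, w) = Fin.append y w := rfl
  simp only [h, Gate.act, input, update_append_right, Fin.append_left, Fin.append_right]
  split_ifs <;> simp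

theorem layer_one_input (u : Matrix.unitaryGroup (Fin 2) ℂ) (x : Fin n → Fin 2) (ψ : State a)
    (l : List (Fin a)) :
    layerAct (l.map fun k => Gate.one (Fin.natAdd n k) u) (input x ψ) =
      input x (layerAct (l.map fun k => Gate.one k u) ψ) := by
  induction l with
  | nil => rfl
  | cons k l ih =>
    have h1 : ∀ {M : ℕ} (g : Gate M) (L : List (Gate M)) (φ : State M),
      layerAct (g :: L) φ = g.act (layerAct L φ) := fun _ _ _ => rfl
    rw [List.map_cons, List.map_cons, h1, h1, ih, act_one_input]

theorem layer_hadamard (l : List (Fin a)) (hl : l.Nodup) :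
    layerAct (l.map fun k => Gate.one k hadamard) (zeros a) =
      fun w => if ∀ k, k ∉ l → w k = 0 then kap ^ l.length else 0 := by
  induction l with
  | nil =>
    funext w
    simp [layerAct, zeros]
  | cons k l ih =>
    obtain ⟨hk, hl'⟩ := List.nodup_cons.1 hl
    have h1 : layerAct ((k :: l).map fun k => Gate.one k hadamard) (zeros a) =
      (Gate.one k hadamard).act (layerAct (l.map fun k => Gate.one k hadamard) (zeros a)) := rfl
    rw [h1, ih hl']
    funext w
    simp only [Gate.act, Fin.sum_univ_two, hadamard_zero]
    have h2 : ¬ ∀ k', k' ∉ l → Function.update w k 1 k' = 0 := fun h => by simpa using h k hk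
    have h3 : (∀ k', k' ∉ l → Function.update w k 0 k' = 0) ↔ ∀ k', k' ∉ k :: l → w k' = 0 := by
      refine ⟨fun h k' hk' => ?_, fun h k' hk' => ?_⟩
      · rw [List.mem_cons, not_or] at hk'
        have := h k' hk'.2
        rwa [Function.update_of_ne hk'.1] at this
      · by_cases e : k' = k
        · rw [e, Function.update_self]
        · rw [Function.update_of_ne e]
          exact h k' (by simp [e, hk'])
    rw [if_neg h2, mul_zero, add_zero]
    by_cases h : ∀ k', k' ∉ k :: l → w k' = 0
    · rw [if_pos h, if_pos (h3.2 h), List.length_cons, pow_succ']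
    · rw [if_neg h, if_neg fun h' => h (h3.1 h'), mul_zero]

/-- The controlled not gate. -/
def cnot (c t : Fin N) (h : t ≠ c) : Gate N :=
  .toffoli {c} t (Finset.singleton_nonempty c) (Finset.notMem_singleton.2 h)

theorem layer_cnot (ct tg : Fin n → Fin N) (h : ∀ i j, tg i ≠ ct j) (φ : State N)
    (l : List (Fin n)) (z : Fin N → Fin 2) :
    layerAct (l.map fun i => cnot (ct i) (tg i) (h i i)) φ z =
      φ fun k => z k + (l.map fun i => if tg i = k then z (ct i) else 0).sum := by
  induction l generalizing z with
  | nil => simp [layerAct]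
  | cons i l ih =>
    have h1 : layerAct ((i :: l).map fun i => cnot (ct i) (tg i) (h i i)) φ z =
      layerAct (l.map fun i => cnot (ct i) (tg i) (h i i)) φ
        (Function.update z (tg i) (z (tg i) + ∏ k ∈ {ct i}, z k)) := rfl
    rw [h1, ih]
    congr 1
    funext k
    simp only [Function.update_of_ne (h i _).symm, Finset.prod_singleton, List.map_cons,
      List.sum_cons, ← add_assoc]
    congr 1
    by_cases e : tg i = k
    · rw [if_pos e, ← e, Function.update_self]
    · rw [if_neg e, Function.update_of_ne (Ne.symm e), add_zero]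

theorem layer_cnot_univ (ct tg : Fin n → Fin N) (h : ∀ i j, tg i ≠ ct j)
    (htg : Function.Injective tg) (z : Fin N → Fin 2) :
    ∃ z' : Fin N → Fin 2, (∀ φ : State N,
      layerAct ((List.finRange n).map fun i => cnot (ct i) (tg i) (h i i)) φ z = φ z') ∧
      (∀ i, z' (tg i) = z (tg i) + z (ct i)) ∧ ∀ k, (∀ i, tg i ≠ k) → z' k = z k := by
  refine ⟨_, fun φ => layer_cnot ct tg h φ _ z, fun i => ?_, fun k hk => ?_⟩
  · simp only [← List.ofFn_eq_map, List.sum_ofFn, htg.eq_iff]
    simp
  · simp [hk]

theorem isLayer_cnot (ct tg : Fin n → Fin N) (h : ∀ i j, tg i ≠ ct j)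
    (htg : Function.Injective tg) (hct : Function.Injective ct) :
    IsLayer ((List.finRange n).map fun i => cnot (ct i) (tg i) (h i i)) := by
  unfold IsLayer
  rw [List.pairwise_map]
  refine (List.nodup_finRange n).imp fun {i j} hij => ?_
  simp only [cnot, Gate.qubits, Finset.disjoint_insert_left, Finset.mem_insert,
    Finset.mem_singleton, Finset.disjoint_singleton_left, not_or]
  exact ⟨⟨htg.ne hij, h i j⟩, (h j i).symm, hct.ne hij⟩

/-- Measure the qubits of a list, discard the run unless all read zero, then go on. -/
def post : List (Fin N) → Protocol N → Protocol N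
  | [], P => P
  | q :: l, P => .measure q fun b => if b = 0 then post l P else .stop none

theorem post_spec (P : Protocol N) (l : List (Fin N)) : (post l P).depth = P.depth ∧
    (post l P).branches = P.branches + l.length ∧ ∀ φ b, (post l P).prob φ b =
      P.prob (fun z => if ∀ q ∈ l, z q = 0 then φ z else 0) b := by
  induction l with
  | nil => exact ⟨rfl, rfl, fun φ b => by simp [post]⟩
  | cons q l ih =>
    refine ⟨by simp [post, Protocol.depth, ih.1], ?_, fun φ b => ?_⟩
    · simp [post, Protocol.branches, ih.2.1, add_assoc]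
    · simp only [post, Protocol.prob, if_true, one_ne_zero, if_false, ih.2.2, reduceCtorEq,
        add_zero]
      congr 1
      funext z
      by_cases h1 : z q = 0 <;> by_cases h2 : ∀ q ∈ l, z q = 0 <;> simp [proj, h1, h2]

/-- Clause (5). -/
theorem postselect_tight (n : ℕ) :
    ∃ P : Protocol (n + (n + 1)), P.depth = 3 ∧ P.branches = n + 3 ∧ ∀ x : Fin n → Fin 2,
      P.prob (input x (zeros (n + 1))) (∑ i, x i) = 1 / 2 ^ (n + 1) ∧
      P.prob (input x (zeros (n + 1))) (∑ i, x i + 1) = 0 := by
  set X : Fin n → Fin (n + (n + 1)) := Fin.castAdd (n + 1) with hX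
  set A : Fin (n + 1) → Fin (n + (n + 1)) := Fin.natAdd n with hA
  have hXA : ∀ i k, X i ≠ A k := castAdd_ne_natAdd
  have hXi : Function.Injective X := Fin.castAdd_injective _ _
  have hAi : Function.Injective A := Fin.natAdd_injective _ _
  have hL1 : IsLayer ((List.finRange (n + 1)).map fun k => Gate.one (A k) hadamard) := by
    unfold IsLayer
    rw [List.pairwise_map]
    refine (List.nodup_finRange _).imp fun {i j} hij => ?_
    simpa [Gate.qubits] using hAi.ne hij
  have hL2 := isLayer_cnot (fun i : Fin n => A i.succ) X (fun _ _ => hXA _ _) hXi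
    (hAi.comp (Fin.succ_injective n))
  have hL3 := isLayer_cnot (fun i : Fin n => A i.castSucc) X (fun _ _ => hXA _ _) hXi
    (hAi.comp (Fin.castSucc_injective n))
  obtain ⟨p1, p2, p3⟩ := post_spec (.measure (A (Fin.last n)) fun b => .stop (some b))
    (A 0 :: (List.finRange n).map X)
  refine ⟨.layer _ hL1 (.layer _ hL2 (.layer _ hL3 (post (A 0 :: (List.finRange n).map X)
    (.measure (A (Fin.last n)) fun b => .stop (some b))))), ?_, ?_, fun x => ?_⟩
  · simp [Protocol.depth, p1]
  · simp only [Protocol.branches, p2, List.length_cons, List.length_map, List.length_finRange]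
    omega
  set s : Fin (n + (n + 1)) → Fin 2 := Fin.append 0 (Fin.partialSum x) with hs
  have hsX : ∀ i, s (X i) = 0 := fun i => Fin.append_left _ _ i
  have hsA : ∀ k, s (A k) = Fin.partialSum x k := fun k => Fin.append_right _ _ k
  have hstate : (fun z => if ∀ q ∈ A 0 :: (List.finRange n).map X, z q = 0 then
      layerAct ((List.finRange n).map fun i => cnot (A i.castSucc) (X i) (hXA _ _))
        (layerAct ((List.finRange n).map fun i => cnot (A i.succ) (X i) (hXA _ _))
          (layerAct ((List.finRange (n + 1)).map fun k => Gate.one (A k) hadamard)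
            (input x (zeros (n + 1))))) z else 0) =
      fun z => if z = s then kap ^ (n + 1) else 0 := by
    funext z
    obtain ⟨z3, a1, a2, a3⟩ := layer_cnot_univ (fun i : Fin n => A i.castSucc) X
      (fun _ _ => hXA _ _) hXi z
    obtain ⟨z2, b1, b2, b3⟩ := layer_cnot_univ (fun i : Fin n => A i.succ) X
      (fun _ _ => hXA _ _) hXi z3
    rw [a1, b1, layer_one_input, layer_hadamard _ (List.nodup_finRange _)]
    have h1 : ∀ i, z2 (X i) = z (X i) + z (A i.castSucc) + z (A i.succ) := fun i => by
      rw [b2, a2, a3 _ fun j => hXA j _]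
    simp only [input, List.mem_finRange, not_true, false_imp_iff, implies_true, if_true,
      List.length_finRange, List.forall_mem_cons, List.forall_mem_map, true_imp_iff]
    by_cases hz : z = s
    · rw [if_pos hz, if_pos, if_pos]
      · intro i
        rw [h1, hz, hsX, hsA, hsA, Fin.partialSum_succ, zero_add, add_comm _ (x i), add_comm,
          add_add_bit]
      · rw [hz, hsA, Fin.partialSum_zero]
        exact ⟨rfl, hsX⟩
    · rw [if_neg hz]
      split_ifs with c1 c2
      · refine absurd (funext fun k => ?_) hz
        refine Fin.addCases (fun i => ?_) (fun k => ?_) k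
        · exact (c1.2 i).trans (hsX i).symm
        · refine Eq.trans ?_ (hsA k).symm
          show z (A k) = _
          induction k using Fin.induction with
          | zero => rw [c1.1, Fin.partialSum_zero]
          | succ i ih =>
            have := c2 i
            rw [h1, c1.2, zero_add, ih] at this
            rw [Fin.partialSum_succ, ← this, add_comm _ (z (A i.succ)), add_comm, add_add_bit]
      · rfl
      · rfl
  have hlast : s (A (Fin.last n)) = ∑ i, x i := by
    rw [hsA]
    simp [Fin.partialSum, List.take_of_length_le, List.sum_ofFn]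
  have hprob : ∀ b, mass (proj (A (Fin.last n)) b fun z => if z = s then kap ^ (n + 1) else 0) =
      if ∑ i, x i = b then 1 / 2 ^ (n + 1) else 0 := by
    intro b
    unfold mass proj
    rw [Finset.sum_eq_single s, hlast]
    · split_ifs with h1
      · simp only [if_true]
        rw [norm_pow, ← pow_mul, mul_comm, pow_mul, norm_kap_sq, _root_.one_div_pow]
      · simp
    · intro z _ hz
      simp [hz]
    · intro h
      exact absurd (mem_univ _) h
  simp only [Protocol.prob, p3, hstate, hprob]
  generalize (∑ i, x i) = t
  fin_cases t <;> simp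

end Vale.Agent.N368V
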